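import Vale.Agent.P078.Sharp.Seed.Model

/-!
# Finite rules for colourings of the seed extension

A locally constant colouring only reads finitely many seeds.
-/

namespace Vale.Agent.P078.Transfer

open Finset Filter Topology
open Vale.Agent.P078.Mss

universe u

variable {K : Type u} [TopologicalSpace K] (G : GraphModel K) {r : ℕ}

section ext

variable {N : ℕ} (wd : Fin N → List (Fin G.L))

open scoped Classical in
/-- The first of the words `wd` which moves `ψ` to `φ`, if there is one. -/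
noncomputable def firstHit (ψ φ : K) : Option (Fin N) :=
  if h : (Finset.univ.filter fun i => act G.h (wd i) ψ = φ).Nonempty
  then some ((Finset.univ.filter fun i => act G.h (wd i) ψ = φ).min' h) else none

open scoped Classical in
lemma firstHit_congr {ψ φ ψ' φ' : K}
    (h : ∀ i, act G.h (wd i) ψ = φ ↔ act G.h (wd i) ψ' = φ') :
    firstHit G wd ψ φ = firstHit G wd ψ' φ' := by
  have e : (Finset.univ.filter fun i => act G.h (wd i) ψ = φ)
      = Finset.univ.filter fun i => act G.h (wd i) ψ' = φ' :=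
    Finset.filter_congr fun i _ => h i
  simp only [firstHit, e]

lemma firstHit_hit (ψ : K) (j : Fin N) :
    ∃ i, firstHit G wd ψ (act G.h (wd j) ψ) = some i ∧ act G.h (wd i) ψ = act G.h (wd j) ψ := by
  classical
  have h : (Finset.univ.filter fun i => act G.h (wd i) ψ = act G.h (wd j) ψ).Nonempty :=
    ⟨j, by simp⟩
  exact ⟨_, by rw [firstHit, dif_pos h], (Finset.mem_filter.1 (Finset.min'_mem _ h)).2⟩

/-- A seeded point extending given seeds on the words `wd`. -/
noncomputable def extSeed [NeZero r] (κ : Fin N → Fin r) (ψ : K) : Seeded G r :=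
  ⟨(ψ, fun w => ((firstHit G wd ψ (act G.h w ψ)).map κ).getD 0),
    fun w w' (e : act G.h w ψ = act G.h w' ψ) => by simp only [e]⟩

lemma extSeed_apply [NeZero r] {p : Seeded G r} (j : Fin N) :
    (extSeed G wd (fun i => p.1.2 (wd i)) p.1.1).1.2 (wd j) = p.1.2 (wd j) := by
  obtain ⟨i, hi, e⟩ := firstHit_hit G wd p.1.1 j
  simp only [extSeed, hi, Option.map_some, Option.getD_some]
  exact p.2 _ _ e

variable [T2Space K]

lemma continuous_extSeed [NeZero r] (κ : Fin N → Fin r) : Continuous (extSeed G wd κ) := by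
  classical
  refine Continuous.subtype_mk (continuous_id.prodMk (continuous_pi fun w => ?_)) _
  refine (IsLocallyConstant.continuous ((IsLocallyConstant.iff_eventually_eq _).2 fun ψ₀ => ?_))
  filter_upwards [eventually_all.2 fun i => eventually_act_iff G (wd i) w ψ₀] with ψ hψ
  rw [firstHit_congr G wd hψ]

end ext

/-- **A locally constant colouring of the extension is a finite rule.** -/
theorem exists_finite_rule [CompactSpace K] [T2Space K] (c : Seeded G r → Fin r)
    (hc : IsLocallyConstant c) :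
    ∃ (N : ℕ) (wd : Fin N → List (Fin G.L)) (Φ : K → (Fin N → Fin r) → Fin r),
      (∀ κ, IsLocallyConstant (fun ψ => Φ ψ κ)) ∧
        ∀ p : Seeded G r, c p = Φ p.1.1 (fun i => p.1.2 (wd i)) := by
  classical
  rcases Nat.eq_zero_or_pos r with rfl | hr
  · refine ⟨1, fun _ => [], fun _ κ => κ 0, fun κ => (κ 0).elim0, fun p => (p.1.2 []).elim0⟩
  have : NeZero r := ⟨hr.ne'⟩
  -- a neighbourhood reading finitely many seeds on which `c` is constant
  have hloc : ∀ p : Seeded G r, ∃ F : Finset (List (Fin G.L)), ∃ U : Set K, IsOpen U ∧ p.1.1 ∈ U ∧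
      ∀ q : Seeded G r, q.1.1 ∈ U → (∀ w ∈ F, q.1.2 w = p.1.2 w) → c q = c p := by
    intro p
    have ho := hc.isOpen_fiber (c p)
    obtain ⟨W, hW, hWe⟩ := isOpen_induced_iff.1 ho
    have hpW : p.1 ∈ W := by
      have : p ∈ Subtype.val ⁻¹' W := by rw [hWe]; rfl
      exact this
    obtain ⟨U, V, hU, hV, hpU, hpV, hUV⟩ := isOpen_prod_iff.1 hW p.1.1 p.1.2 hpW
    obtain ⟨F, u, hu, hsub⟩ := isOpen_pi_iff.1 hV p.1.2 hpV
    refine ⟨F, U, hU, hpU, fun q hqU hqF => ?_⟩
    have hq : q ∈ Subtype.val ⁻¹' W := hUV ⟨hqU, hsub fun w hw => by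
      rw [hqF w hw]
      exact (hu w hw).2⟩
    rw [hWe] at hq
    exact hq
  choose F U hU hpU hconst using hloc
  obtain ⟨T, hT⟩ := (isCompact_univ (X := Seeded G r)).elim_finite_subcover
    (fun p => {q : Seeded G r | q.1.1 ∈ U p ∧ ∀ w ∈ F p, q.1.2 w = p.1.2 w})
    (fun p => by
      rw [show {q : Seeded G r | q.1.1 ∈ U p ∧ ∀ w ∈ F p, q.1.2 w = p.1.2 w}
          = (fun q : Seeded G r => q.1.1) ⁻¹' U p
            ∩ ⋂ w ∈ F p, (fun q : Seeded G r => q.1.2 w) ⁻¹' {p.1.2 w} by
        ext q; simp]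
      exact ((hU p).preimage (by fun_prop)).inter (isOpen_biInter_finset fun w _ =>
        (isOpen_discrete _).preimage (by fun_prop)))
    fun q _ => Set.mem_iUnion.2 ⟨q, hpU q, fun _ _ => rfl⟩
  set W := T.biUnion F
  set wd : Fin W.card → List (Fin G.L) := fun i => (W.equivFin.symm i).1
  refine ⟨W.card, wd, fun ψ κ => c (extSeed G wd κ ψ),
    fun κ => hc.comp_continuous (continuous_extSeed G wd κ), fun p => ?_⟩
  obtain ⟨p₀, hp₀, hp⟩ := Set.mem_iUnion₂.1 (hT (Set.mem_univ p))
  set p' := extSeed G wd (fun i => p.1.2 (wd i)) p.1.1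
  have hp' : c p' = c p₀ := hconst p₀ p' hp.1 fun w hw => by
    have hwW : w ∈ W := Finset.mem_biUnion.2 ⟨p₀, hp₀, hw⟩
    have hwd : wd (W.equivFin ⟨w, hwW⟩) = w := by simp [wd]
    have h := extSeed_apply G wd (p := p) (W.equivFin ⟨w, hwW⟩)
    rw [hwd] at h
    exact h.trans (hp.2 w hw)
  exact (hconst p₀ p hp.1 hp.2).trans hp'.symm

end Vale.Agent.P078.Transfer
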