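import Vale.Agent.P078.Transfer.Build
import Vale.Agent.P078.Sharp.Seed.Rule

/-!
# Seeded colourings of an operator

An equivariant colouring of the seed extension gives colour pieces which are polynomials in
translated seed pieces, with uniform mean over the seeds.
-/

namespace Vale.Agent.P078.Transfer

open ComplexInnerProductSpace
open Filter Topology WeakDual
open scoped Matrix
open Vale.Agent.P078 Vale.Agent.P078.General Vale.Agent.P078.Finite Vale.Agent.P078.Mss

universe u

variable {H : Type u} [NormedAddCommGroup H] [InnerProductSpace ℂ H] [CompleteSpace H]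
variable {M : VonNeumannAlgebra H} {A : StarSubalgebra ℂ (H →L[ℂ] H)} {Ω : H}

/-- The colour pieces of a seed polynomial. -/
noncomputable abbrev seedQ (P : Part A) {r N : ℕ} (u : Fin N → H →L[ℂ] H)
    (coef : (Fin N → Fin r) → Fin r → H →L[ℂ] H) (f : Fin P.n → Fin r) (c : Fin r) : H →L[ℂ] H :=
  ∑ κ, coef κ c * (List.ofFn fun i => u i * P.piece f (κ i) * star (u i)).prod

lemma evA_finset_sum (hA : IsMASAIn M A) (ψ : Chars A) {ι : Type*} (S : Finset ι)
    {a : ι → H →L[ℂ] H} (ha : ∀ i ∈ S, a i ∈ A) :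
    evA ψ (∑ i ∈ S, a i) = ∑ i ∈ S, evA ψ (a i) := by
  rw [← om_mem (hA := hA) ψ (sum_mem ha), om_sum ψ S fun i hi => hA.mem_M (ha i hi)]
  exact Finset.sum_congr rfl fun i hi => om_mem (hA := hA) ψ (ha i hi)

lemma ofFn_prod_mem {N : ℕ} {g : Fin N → H →L[ℂ] H} (hg : ∀ i, g i ∈ A) :
    (List.ofFn g).prod ∈ A :=
  _root_.list_prod_mem fun _ hx => by
    obtain ⟨i, rfl⟩ := List.mem_ofFn.1 hx
    exact hg i

lemma evA_prod (ψ : Chars A) : ∀ {N : ℕ} {g : Fin N → H →L[ℂ] H}, (∀ i, g i ∈ A) →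
    evA ψ (List.ofFn g).prod = ∏ i, evA ψ (g i)
  | 0, _, _ => by simp [evA_one]
  | N + 1, g, hg => by
    rw [List.ofFn_succ, List.prod_cons, evA_mul ψ (hg 0) (ofFn_prod_mem fun i => hg _),
      evA_prod ψ fun i => hg _, Fin.prod_univ_succ]

lemma exists_atom (hA : IsMASAIn M A) (P : Part A) (χ : Chars A) :
    ∃ i, evA χ (P.e i) = 1 := by
  by_contra! h
  have e := congrArg (evA χ) P.total
  rw [evA_finset_sum hA χ _ (fun i _ => P.mem i), evA_one,
    Finset.sum_eq_zero fun i _ => (evA_proj hA χ (P.mem i) (P.proj i)).resolve_right (h i)] at e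
  exact zero_ne_one e

/-- The atom carrying a character. -/
noncomputable def atom (hA : IsMASAIn M A) (P : Part A) (χ : Chars A) : Fin P.n :=
  (exists_atom hA P χ).choose

lemma evA_atom (hA : IsMASAIn M A) (P : Part A) (χ : Chars A) (j : Fin P.n) :
    evA χ (P.e j) = if atom hA P χ = j then 1 else 0 := by
  have h1 : evA χ (P.e (atom hA P χ)) = 1 := (exists_atom hA P χ).choose_spec
  split_ifs with e
  · rw [← e, h1]
  · have := congrArg (evA χ) (P.orth (atom hA P χ) j e)
    rw [evA_mul χ (P.mem _) (P.mem _), h1, one_mul, evA_of_mem χ (zero_mem A)] at this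
    exact this.trans (map_zero χ)

lemma atom_locallyConstant (hA : IsMASAIn M A) (P : Part A) :
    IsLocallyConstant (atom hA P) := by
  refine (IsLocallyConstant.iff_eventually_eq _).2 fun χ => ?_
  have h1 : evA χ (P.e (atom hA P χ)) = 1 := (exists_atom hA P χ).choose_spec
  filter_upwards [((continuous_evA (P.e (atom hA P χ))).continuousAt).eventually_ne
    (show evA χ (P.e (atom hA P χ)) ≠ 0 by rw [h1]; exact one_ne_zero)] with φ hφ
  by_contra he
  rw [evA_atom hA P φ, if_neg he] at hφ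
  exact hφ rfl

lemma evA_piece (hA : IsMASAIn M A) (P : Part A) {r : ℕ} (f : Fin P.n → Fin r) (χ : Chars A)
    (a : Fin r) : evA χ (P.piece f a) = if f (atom hA P χ) = a then 1 else 0 := by
  classical
  rw [Part.piece, evA_finset_sum hA χ _ fun i _ => P.mem i]
  simp only [evA_atom hA P, Finset.sum_ite_eq, Finset.mem_filter, Finset.mem_univ, true_and]

lemma seedQ_mem (hA : IsMASAIn M A) (P : Part A) {r N : ℕ} {u : Fin N → H →L[ℂ] H}
    (hU : ∀ i, IsU M A (u i)) {coef : (Fin N → Fin r) → Fin r → H →L[ℂ] H}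
    (hcoef : ∀ κ a, coef κ a ∈ A) (f : Fin P.n → Fin r) (a : Fin r) : seedQ P u coef f a ∈ A :=
  sum_mem fun κ _ => mul_mem (hcoef κ a)
    (ofFn_prod_mem fun i => (hU i).conj _ ((P.piece_props f).1 _).1)

/-- The value of a seed polynomial at a character. -/
lemma evA_seedQ (hA : IsMASAIn M A) (P : Part A) {r N : ℕ} {u : Fin N → H →L[ℂ] H}
    (hU : ∀ i, IsU M A (u i)) {coef : (Fin N → Fin r) → Fin r → H →L[ℂ] H}
    (hcoef : ∀ κ a, coef κ a ∈ A) {Φ : Chars A → (Fin N → Fin r) → Fin r}
    (hev : ∀ κ a ψ, evA ψ (coef κ a) = if Φ ψ κ = a then 1 else 0)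
    (f : Fin P.n → Fin r) (a : Fin r) (ψ : Chars A) :
    evA ψ (seedQ P u coef f a)
      = if Φ ψ (fun i => f (atom hA P (hh hA (u i) ψ))) = a then 1 else 0 := by
  classical
  have hmem : ∀ (κ : Fin N → Fin r) i, u i * P.piece f (κ i) * star (u i) ∈ A :=
    fun κ i => (hU i).conj _ ((P.piece_props f).1 _).1
  rw [seedQ, evA_finset_sum hA ψ _ fun κ _ => mul_mem (hcoef κ a) (ofFn_prod_mem (hmem κ))]
  rw [Finset.sum_eq_single (fun i => f (atom hA P (hh hA (u i) ψ)))]
  · rw [evA_mul ψ (hcoef _ a) (ofFn_prod_mem (hmem _)), evA_prod ψ (hmem _),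
      Finset.prod_eq_one fun i _ => ?_, mul_one, hev]
    rw [← evA_hh (hA := hA) (hU i) ψ ((P.piece_props f).1 _).1, evA_piece hA, if_pos rfl]
  · intro κ _ hne
    obtain ⟨i, hi⟩ := Function.ne_iff.1 hne
    rw [evA_mul ψ (hcoef _ a) (ofFn_prod_mem (hmem κ)), evA_prod ψ (hmem κ),
      Finset.prod_eq_zero (Finset.mem_univ i) ?_, mul_zero]
    rw [← evA_hh (hA := hA) (hU i) ψ ((P.piece_props f).1 _).1, evA_piece hA, if_neg (Ne.symm hi)]
  · exact fun h => absurd (Finset.mem_univ _) h

/-- An equivariant map on seeds has fibres of equal size. -/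
lemma card_fibre_eq {n r : ℕ} [NeZero r] (C : (Fin n → Fin r) → Fin r)
    (hC : ∀ f k, C (fun i => f i + k) = C f + k) (a : Fin r) :
    ((Finset.univ.filter fun f => C f = a).card : ℂ)
      = (Fintype.card (Fin n → Fin r) : ℂ) / r := by
  classical
  let fib : Fin r → Finset (Fin n → Fin r) := fun a' => Finset.univ.filter fun f => C f = a'
  have hfib : ∀ a', (fib a').card = (fib a).card := fun a' => by
    refine Finset.card_nbij' (fun f i => f i + (a - a')) (fun f i => f i + (a' - a))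
      (fun f hf => ?_) (fun f hf => ?_) (fun f _ => ?_) fun f _ => ?_
    · simp only [fib, Finset.coe_filter, Finset.mem_univ, true_and, Set.mem_ofPred_eq] at hf ⊢
      rw [hC, hf, add_sub_cancel]
    · simp only [fib, Finset.coe_filter, Finset.mem_univ, true_and, Set.mem_ofPred_eq] at hf ⊢
      rw [hC, hf, add_sub_cancel]
    · funext i; dsimp only; abel
    · funext i; dsimp only; abel
  have htot : Fintype.card (Fin n → Fin r) = r * (fib a).card := by
    rw [← Finset.card_univ, Finset.card_eq_sum_card_fiberwise (f := C)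
      (t := Finset.univ) (fun _ _ => Finset.mem_univ _)]
    calc ∑ a', (fib a').card = ∑ _a' : Fin r, (fib a).card :=
          Finset.sum_congr rfl fun a' _ => hfib a'
      _ = _ := by simp
  rw [htot, Nat.cast_mul, mul_div_cancel_left₀ _ (Nat.cast_ne_zero.2 (NeZero.ne r))]

variable (h : FinSetting M A Ω) {L : ℕ} (s b : Fin L → (H →L[ℂ] H))
  (hs : ∀ i, s i ∈ M ∧ IsSelfAdjoint (s i) ∧ s i * s i = 1 ∧ ∀ a ∈ A, s i * a * s i ∈ A)
  (hb : ∀ i, b i ∈ A) {x : H →L[ℂ] H} (hx : x = ∑ i, b i * s i) (hxs : IsSelfAdjoint x)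
  (hx1 : ‖x‖ ≤ 1) (hx0 : plim h.masa x = 0)

include h hs hb hx hxs hx1 hx0 in
/-- The functional of the diagonal of a pinched kernel is a trace. -/
theorem trace_diagVal {r : ℕ} (col : Chars A → Fin r) (p : Fin r → (H →L[ℂ] H))
    (hpA : ∀ c, p c ∈ A) (hev : ∀ c ψ, evA ψ (p c) = if col ψ = c then 1 else 0)
    (g : Polynomial ℝ) (hc : Continuous ((model h s b hs hb hx hxs hx1 hx0).diagVal col g)) :
    (model h s b hs hb hx hxs hx1 hx0).T
        ⟨(model h s b hs hb hx hxs hx1 hx0).diagVal col g, hc⟩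
      = (⟪Ω, (Polynomial.aeval (∑ c, p c * x * p c) g) Ω⟫).re := by
  classical
  have hA := h.masa
  have hpM : ∀ c, p c ∈ M := fun c => hA.mem_M (hpA c)
  set G := model h s b hs hb hx hxs hx1 hx0 with hG
  have hxM : x ∈ M := x_mem h s b hs hb hx
  set y := ∑ c, p c * x * p c with hy
  have hyM : y ∈ M := sum_mem (fun c _ => mul_mem (mul_mem (hpM c) hxM) (hpM c))
  have hmulX : ∀ z ∈ M, ∀ χ φ, X hA (x * z) χ φ
      = ∑ θ ∈ G.nbhd χ, X hA x χ θ * X hA z θ φ := by
    intro z hz χ φ
    have hnb : ∀ i, hh hA (s i) χ ∈ G.nbhd χ := fun i => by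
      simp only [GraphModel.nbhd, Finset.mem_insert, Finset.mem_image, Finset.mem_univ, true_and]
      exact Or.inr ⟨i, rfl⟩
    have e1 : x * z = ∑ i, b i * (s i * z) := by
      rw [hx, Finset.sum_mul]
      simp only [mul_assoc]
    rw [e1, X_sum _ (fun i _ => mul_mem (hA.mem_M (hb i)) (mul_mem (hs i).1 hz))]
    simp only [X_x_apply h s b hs hb hx, Finset.sum_mul]
    rw [Finset.sum_comm (s := G.nbhd χ)]
    refine Finset.sum_congr rfl (fun i _ => ?_)
    rw [X_mem_mul (hb i) (mul_mem (hs i).1 hz), X_unitary_mul h (isU_s s hs i) hz,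
      Finset.sum_eq_single_of_mem _ (hnb i) (fun θ _ hne => by
        rw [X_unitary_eq_zero h (isU_s s hs i) (Ne.symm hne), mul_zero, zero_mul]), mul_assoc]
  have hpow : ∀ (k : ℕ) χ φ, X hA (y ^ k) χ φ = G.wpow col k χ φ := by
    intro k
    induction k with
    | zero =>
      intro χ φ
      rw [pow_zero, X_one h, GraphModel.wpow]
      split_ifs <;> rfl
    | succ k ih =>
      intro χ φ
      have hk : y ^ k ∈ M := pow_mem hyM k
      have hpk : ∀ c, p c * y ^ k ∈ M := fun c => mul_mem (hpM c) hk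
      have e : y ^ (k + 1) = ∑ c, p c * (x * (p c * y ^ k)) := by
        rw [pow_succ', hy, Finset.sum_mul]
        simp only [mul_assoc]
      rw [e, X_sum _ (fun c _ => mul_mem (hpM c) (mul_mem hxM (hpk c))), GraphModel.wpow]
      rw [Finset.sum_congr rfl (fun c _ => X_mem_mul (hpA c) (mul_mem hxM (hpk c)) χ φ)]
      simp only [hev, ite_mul, one_mul, zero_mul, Finset.sum_ite_eq, Finset.mem_univ, if_true]
      rw [hmulX _ (hpk _)]
      refine Finset.sum_congr rfl (fun θ _ => ?_)
      rw [X_mem_mul (hpA _) hk, hev, ih]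
      split_ifs with h1 h2 h3
      · simp [hG, model]
      · exact absurd h1.symm h2
      · exact absurd h3.symm h1
      · simp
  set Y := Polynomial.aeval y g with hY
  have hYs : Y = ∑ k ∈ Finset.range (g.natDegree + 1), (g.coeff k : ℂ) • y ^ k := by
    rw [hY, Polynomial.aeval_eq_sum_range]
    exact Finset.sum_congr rfl (fun k _ => (Complex.coe_smul _ _).symm)
  have hYM : Y ∈ M := hYs ▸ sum_mem (fun k _ => smul_mem_vna _ (pow_mem hyM k))
  have hEY : plim hA Y ∈ A := plim_mem hA hYM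
  have e : ghat hA (toC ⟨G.diagVal col g, hc⟩)
      = (1 / 2 : ℂ) • (plim hA Y + star (plim hA Y)) := by
    refine evA_inj hA (ghat_mem _ _)
      (A.toSubalgebra.smul_mem (add_mem hEY (star_mem hEY) : plim hA Y + star (plim hA Y) ∈ A) _) (fun ψ => ?_)
    rw [evA_ghat, evA_smul ψ _ (add_mem hEY (star_mem hEY)), evA_add ψ hEY (star_mem hEY),
      evA_star hA ψ hEY, Complex.add_conj]
    have : evA ψ (plim hA Y)
        = ∑ k ∈ Finset.range (g.natDegree + 1), (g.coeff k : ℂ) * G.wpow col k ψ ψ := by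
      change om hA ψ Y = _
      rw [hYs, om_sum ψ _ (fun k _ => smul_mem_vna _ (pow_mem hyM k))]
      refine Finset.sum_congr rfl (fun k _ => ?_)
      rw [om_smul ψ _ (pow_mem hyM k), ← X_diag h (pow_mem hyM k), hpow]
    rw [this]
    simp [toC, GraphModel.diagVal, Complex.re_sum]
  change (⟪Ω, ghat hA (toC ⟨G.diagVal col g, hc⟩) Ω⟫).re = _
  have hEM : plim hA Y ∈ M := hA.mem_M hEY
  rw [e, smul_apply, add_apply, inner_smul_right, inner_add_right, inner_plim h hYM,
    ← inner_conj_symm Ω (star (plim hA Y) Ω), ContinuousLinearMap.star_eq_adjoint,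
    ContinuousLinearMap.adjoint_inner_left, inner_plim h hYM]
  simp [Complex.mul_re, Complex.add_re]
  rw [re_inner_symm (Y Ω)]
  ring


include h hs hb hx hxs hx1 hx0 in
/-- **The seeded model.** An equivariant colouring of the seed extension gives seed polynomials
with uniform mean whose pinchings have the traces of the pulled back model. -/
theorem exists_seeded_model :
    ∃ (K : Type u) (_ : TopologicalSpace K) (_ : CompactSpace K) (_ : T2Space K)
      (_ : TotallySeparatedSpace K) (G : GraphModel K),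
      G.T 1 = ‖Ω‖ ^ 2 ∧
      ∀ {r : ℕ} (c : Seeded G r → Fin r), IsLocallyConstant c →
        (∀ k p, c (shift G k p) = c p + k) →
        ∃ (N : ℕ) (u : Fin N → (H →L[ℂ] H))
          (coef : (Fin N → Fin r) → Fin r → (H →L[ℂ] H)),
          (∀ i, IsNormaliser M A (u i) ∧ star (u i) * u i = 1 ∧ u i * star (u i) = 1) ∧
          (∀ κ a, coef κ a ∈ A) ∧
          (∀ (P : Part A) f a, IsStarProjection (seedQ P u coef f a)) ∧
          (∀ (P : Part A) f a a', a ≠ a' → seedQ P u coef f a * seedQ P u coef f a' = 0) ∧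
          (∀ (P : Part A) f, ∑ a, seedQ P u coef f a = 1) ∧
          (∀ (P : Part A) a, ∑ f : Fin P.n → Fin r, seedQ P u coef f a
            = ((Fintype.card (Fin P.n → Fin r) : ℂ) / r) • 1) ∧
          ∀ (P : Part A) (f : Fin P.n → Fin r), ∃ (σ : K → Fin r) (hσ : IsLocallyConstant σ),
            ∀ (g : Polynomial ℝ) (hc : Continuous ((G.seeded r).diagVal c g)),
              pullT G σ hσ ⟨(G.seeded r).diagVal c g, hc⟩
                = (⟪Ω, (Polynomial.aeval
                    (∑ a, seedQ P u coef f a * x * seedQ P u coef f a) g) Ω⟫).re := by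
  classical
  have hA := h.masa
  set G := model h s b hs hb hx hxs hx1 hx0 with hG
  have : CompactSpace (Chars A) := chars_compact hA
  refine ⟨Chars A, inferInstance, chars_compact hA, chars_t2 A, chars_totallySeparated hA, G, ?_, ?_⟩
  · have e : ghat hA (toC 1) = 1 :=
      evA_inj hA (ghat_mem _ _) (one_mem A) (fun ψ => by rw [evA_ghat, evA_one]; simp [toC])
    change (⟪Ω, ghat hA (toC 1) Ω⟫).re = _
    rw [e, one_apply_eq_self, @norm_sq_eq_re_inner ℂ]
    rfl
  intro r c hc heq
  obtain ⟨N, wd, Φ, hΦ, hrule⟩ := exists_finite_rule G c hc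
  let u : Fin N → (H →L[ℂ] H) := fun i => wordOp s (wd i)
  let coef : (Fin N → Fin r) → Fin r → (H →L[ℂ] H) := fun κ a => ghat hA
    ⟨fun ψ => if Φ ψ κ = a then 1 else 0, ((hΦ κ).comp (fun d => if d = a then (1 : ℂ) else 0)).continuous⟩
  let σ : ∀ P : Part A, (Fin P.n → Fin r) → Chars A → Fin r := fun P f χ => f (atom hA P χ)
  have hσ : ∀ P f, IsLocallyConstant (σ P f) := fun P f => (atom_locallyConstant hA P).comp f
  let col : ∀ P : Part A, (Fin P.n → Fin r) → Chars A → Fin r := fun P f ψ =>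
    c (sect G (σ P f) (hσ P f) ψ)
  have hU : ∀ i, IsU M A (u i) := fun i => isU_word s hs (wd i)
  have hcoef : ∀ κ a, coef κ a ∈ A := fun κ a => ghat_mem _ _
  have hqA : ∀ (P : Part A) f a, seedQ P u coef f a ∈ A := fun P f a =>
    seedQ_mem hA P hU hcoef f a
  have hev : ∀ (P : Part A) f a ψ,
      evA ψ (seedQ P u coef f a) = if col P f ψ = a then 1 else 0 := by
    intro P f a ψ
    rw [evA_seedQ hA P hU hcoef (Φ := Φ) (fun κ a ψ => evA_ghat hA _ ψ) f a ψ,
      show col P f ψ = Φ ψ (fun i => σ P f (act G.h (wd i) ψ)) from hrule _]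
    have e : ∀ i, hh hA (u i) ψ = act G.h (wd i) ψ := fun i => (act_word s hs hA (wd i) ψ).symm
    simp only [σ, e]
  refine ⟨N, u, coef, fun i => ⟨(hU i).normaliser, (hU i).sm, (hU i).ms⟩, hcoef,
    fun P f a => ?_, fun P f a a' ha => ?_, fun P f => ?_, fun P a => ?_,
    fun P f => ⟨σ P f, hσ P f, fun g hcont => ?_⟩⟩
  · refine ⟨evA_inj hA (mul_mem (hqA P f a) (hqA P f a)) (hqA P f a) fun ψ => ?_,
      evA_inj hA (star_mem (hqA P f a)) (hqA P f a) fun ψ => ?_⟩
    · rw [evA_mul ψ (hqA P f a) (hqA P f a), hev]; split_ifs <;> simp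
    · rw [evA_star hA ψ (hqA P f a), hev]; split_ifs <;> simp
  · refine evA_inj hA (mul_mem (hqA P f a) (hqA P f a')) (zero_mem A) fun ψ => ?_
    rw [evA_mul ψ (hqA P f a) (hqA P f a'), hev, hev, evA_of_mem ψ (zero_mem A),
      show (⟨0, zero_mem A⟩ : A) = 0 from rfl, map_zero]
    rcases eq_or_ne (col P f ψ) a with e | e
    · rw [if_neg fun e' => ha (e.symm.trans e'), mul_zero]
    · rw [if_neg e, zero_mul]
  · refine evA_inj hA (sum_mem fun a _ => hqA P f a) (one_mem A) fun ψ => ?_
    rw [evA_finset_sum hA ψ _ (fun a _ => hqA P f a), evA_one]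
    simp [hev]
  · have : NeZero r := ⟨fun h0 => by subst h0; exact a.elim0⟩
    refine evA_inj hA (sum_mem fun f _ => hqA P f a)
      (A.toSubalgebra.smul_mem (one_mem A) _) fun ψ => ?_
    rw [evA_finset_sum hA ψ _ (fun f _ => hqA P f a), evA_smul ψ _ (one_mem A), evA_one, mul_one]
    simp only [hev, Finset.sum_boole]
    exact card_fibre_eq (fun f => col P f ψ) (fun f k => by
      show c _ = c _ + k
      rw [← heq k]
      exact congrArg c (Subtype.ext rfl)) a
  · have hval : (fun ψ => (G.seeded r).diagVal c g (sect G (σ P f) (hσ P f) ψ))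
        = G.diagVal (col P f) g := funext fun ψ => diagVal_sect G (σ P f) (hσ P f) c g ψ
    have hc' : Continuous (G.diagVal (col P f) g) :=
      hval ▸ hcont.comp (sect G (σ P f) (hσ P f)).continuous
    have key := trace_diagVal h s b hs hb hx hxs hx1 hx0 (col P f) (fun a => seedQ P u coef f a)
      (fun a => hqA P f a) (fun a ψ => hev P f a ψ) g hc'
    refine Eq.trans ?_ key
    exact congrArg G.T (ContinuousMap.ext fun ψ => congrFun hval ψ)

end Vale.Agent.P078.Transfer
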