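import Vale.Agent.P078.Transfer.Words

/-!
# The seed extension of a graph model

A point of the extension is a point of the model together with a colour for every point of its
orbit, indexed by words.
-/

namespace Vale.Agent.P078.Transfer

open Finset Filter Topology
open Vale.Agent.P078.Mss
open scoped Matrix

universe u

variable {K : Type u} [TopologicalSpace K]

/-- A point with colours on its orbit. -/
abbrev Seeded (G : GraphModel K) (r : ℕ) : Type u :=
  {p : K × (List (Fin G.L) → Fin r) //
    ∀ w w', act G.h w p.1 = act G.h w' p.1 → p.2 w = p.2 w'}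

variable (G : GraphModel K) {r : ℕ}

lemma isClosed_seeded (r : ℕ) :
    IsClosed {p : K × (List (Fin G.L) → Fin r) |
      ∀ w w', act G.h w p.1 = act G.h w' p.1 → p.2 w = p.2 w'} := by
  simp only [Set.ofPred_forall]
  refine isClosed_iInter fun w => isClosed_iInter fun w' => ?_
  have e : {p : K × (List (Fin G.L) → Fin r) | act G.h w p.1 = act G.h w' p.1 → p.2 w = p.2 w'}
      = (Prod.fst ⁻¹' {ψ | act G.h w ψ = act G.h w' ψ})ᶜ ∪ {p : K × (List (Fin G.L) → Fin r) | p.2 w = p.2 w'} := by
    ext p
    simp [imp_iff_not_or]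
  rw [e]
  exact (((G.fix_open w w').preimage continuous_fst).isClosed_compl).union
    (isClosed_eq ((continuous_apply w).comp continuous_snd)
      ((continuous_apply w').comp continuous_snd))

instance [CompactSpace K] (r : ℕ) : CompactSpace (Seeded G r) :=
  isCompact_iff_compactSpace.1 (isClosed_seeded G r).isCompact

instance [TotallySeparatedSpace K] (r : ℕ) : TotallySeparatedSpace (Seeded G r) := by
  refine totallySeparatedSpace_iff_exists_isClopen.2 fun p q hne => ?_
  by_cases h1 : p.1.1 = q.1.1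
  · obtain ⟨w, hw⟩ : ∃ w, p.1.2 w ≠ q.1.2 w :=
      Function.ne_iff.1 fun h => hne (Subtype.ext (Prod.ext h1 h))
    refine ⟨(fun s : Seeded G r => s.1.2 w) ⁻¹' {p.1.2 w},
      (isClopen_discrete _).preimage (by fun_prop), rfl, fun h => hw h.symm⟩
  · obtain ⟨U, hU, hp, hq⟩ := totallySeparatedSpace_iff_exists_isClopen.1 ‹_› h1
    exact ⟨(fun s : Seeded G r => s.1.1) ⁻¹' U, hU.preimage (by fun_prop), hp, hq⟩

/-- The involutions of the extension. -/
def seedH (i : Fin G.L) (p : Seeded G r) : Seeded G r :=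
  ⟨(G.h i p.1.1, fun w => p.1.2 (i :: w)), fun w w' e => p.2 (i :: w) (i :: w') e⟩

lemma act_seed (w : List (Fin G.L)) (p : Seeded G r) :
    (act (seedH G (r := r)) w p).1 = (act G.h w p.1.1, fun v => p.1.2 (w ++ v)) := by
  induction w generalizing p with
  | nil => rfl
  | cons i w ih =>
    show (act (seedH G) w (seedH G i p)).1 = _
    rw [ih]
    rfl

lemma act_seed_eq_iff (w w' : List (Fin G.L)) (p : Seeded G r) :
    act (seedH G) w p = act (seedH G) w' p ↔ act G.h w p.1.1 = act G.h w' p.1.1 := by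
  refine ⟨fun h => ?_, fun h => Subtype.ext ?_⟩
  · have := congrArg (fun q : Seeded G r => q.1.1) h
    simpa [act_seed] using this
  · rw [act_seed, act_seed, h]
    refine Prod.ext rfl (funext fun v => p.2 _ _ ?_)
    rw [act_append, act_append, h]

lemma seedH_inv (i : Fin G.L) (p : Seeded G r) : seedH G i (seedH G i p) = p :=
  Subtype.ext (Prod.ext (G.h_inv i _) (funext fun w => p.2 (i :: i :: w) w (by
    show act G.h w (G.h i (G.h i p.1.1)) = _
    rw [G.h_inv])))

/-- Two seeded points in one orbit. -/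
def SameOrbit (p q : Seeded G r) : Prop := ∃ w, act (seedH G) w p = q

lemma act_seed_reverse (w : List (Fin G.L)) (p : Seeded G r) :
    act (seedH G) w.reverse (act (seedH G) w p) = p := by
  rw [← act_append]
  refine ((act_seed_eq_iff G _ [] p).2 ?_)
  rw [act_append, act_reverse]
  rfl

lemma sameOrbit_equiv : Equivalence (SameOrbit G (r := r)) where
  refl p := ⟨[], rfl⟩
  symm := fun ⟨w, hw⟩ => ⟨w.reverse, by rw [← hw, act_seed_reverse]⟩
  trans := fun ⟨w, hw⟩ ⟨w', hw'⟩ => ⟨w ++ w', by rw [act_append, hw, hw']⟩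

lemma eq_of_sameOrbit {p q : Seeded G r} (h : SameOrbit G p q) (e : p.1.1 = q.1.1) : p = q := by
  obtain ⟨w, hw⟩ := h
  have h1 : act G.h w p.1.1 = act G.h [] p.1.1 := by
    have := congrArg (fun s : Seeded G r => s.1.1) hw
    simp only [act_seed] at this
    rw [this, ← e]
    rfl
  rw [← hw, (act_seed_eq_iff G w [] p).2 h1]
  rfl

open scoped Classical in
/-- The kernel of the extension. -/
noncomputable def seedX : Matrix (Seeded G r) (Seeded G r) ℂ :=
  Matrix.of fun p q => if SameOrbit G p q then G.x p.1.1 q.1.1 else 0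

lemma seedX_numBound (S : Finset (Seeded G r)) :
    NumBound ((seedX G).submatrix (Subtype.val : {v // v ∈ S} → Seeded G r) Subtype.val) 1 := by
  classical
  refine ⟨Matrix.IsHermitian.ext fun i j => ?_, fun v => ?_⟩
  · simp only [seedX, Matrix.submatrix_apply, Matrix.of_apply]
    by_cases h : SameOrbit G i.1 j.1
    · rw [if_pos h, if_pos ((sameOrbit_equiv G).symm h)]
      have := (G.x_bound {i.1.1.1, j.1.1.1}).1.apply ⟨i.1.1.1, by simp⟩ ⟨j.1.1.1, by simp⟩
      simpa using this
    · rw [if_neg h, if_neg fun h' => h ((sameOrbit_equiv G).symm h')]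
      simp
  -- split the sum into orbits
  let st : Setoid {v // v ∈ S} :=
    ⟨fun i j => SameOrbit G i.1 j.1, fun i => (sameOrbit_equiv G).refl i.1,
      fun h => (sameOrbit_equiv G).symm h, fun h h' => (sameOrbit_equiv G).trans h h'⟩
  set π : {v // v ∈ S} → Quotient st := Quotient.mk st
  have hπ : ∀ i j, π i = π j ↔ SameOrbit G i.1 j.1 := fun i j =>
    ⟨fun h => Quotient.exact h, fun h => Quotient.sound h⟩
  set B := Finset.univ.image π
  set cls := fun b => Finset.univ.filter fun i => π i = b
  have key : star v ⬝ᵥ ((seedX G).submatrix (Subtype.val : {v // v ∈ S} → Seeded G r)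
      Subtype.val) *ᵥ v
      = ∑ b ∈ B, ∑ i ∈ cls b, ∑ j ∈ cls b, starRingEnd ℂ (v i) * (G.x i.1.1.1 j.1.1.1 * v j) := by
    simp only [dotProduct, Matrix.mulVec, Matrix.submatrix_apply, seedX, Matrix.of_apply,
      Pi.star_apply, Finset.mul_sum, starRingEnd_apply]
    rw [← Finset.sum_fiberwise_of_maps_to (g := π) (t := B)
      (fun i hi => Finset.mem_image_of_mem _ hi)]
    refine Finset.sum_congr rfl fun b _ => Finset.sum_congr rfl fun i hi => ?_
    rw [Finset.sum_filter]
    refine Finset.sum_congr rfl fun j _ => ?_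
    have hib : π i = b := (Finset.mem_filter.1 hi).2
    by_cases h : π j = b
    · rw [if_pos h, if_pos ((hπ i j).1 (hib.trans h.symm))]
    · rw [if_neg h, if_neg fun hs => h (((hπ i j).2 hs).symm.trans hib)]
      simp
  rw [key, Complex.re_sum, one_mul,
    ← Finset.sum_fiberwise_of_maps_to (g := π) (t := B) (fun i hi => Finset.mem_image_of_mem _ hi)]
  refine (Finset.abs_sum_le_sum_abs _ _).trans (Finset.sum_le_sum fun b _ => ?_)
  -- one orbit projects injectively
  have hinj : Set.InjOn (fun i : {v // v ∈ S} => i.1.1.1) (cls b) := fun i hi j hj e =>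
    Subtype.ext (eq_of_sameOrbit G ((hπ i j).1
      ((Finset.mem_filter.1 hi).2.trans (Finset.mem_filter.1 hj).2.symm)) e)
  set S' := (cls b).image fun i : {v // v ∈ S} => i.1.1.1
  set v' : {a // a ∈ S'} → ℂ := fun a => ∑ i ∈ cls b, if i.1.1.1 = a.1 then v i else 0
  have hv' : ∀ i (hi : i ∈ cls b), v' ⟨i.1.1.1, Finset.mem_image_of_mem _ hi⟩ = v i := fun i hi =>
    (Finset.sum_eq_single_of_mem i hi (fun j hj hne =>
      if_neg fun e => hne (hinj hj hi e))).trans (if_pos rfl)
  have hre : ∀ F : {a // a ∈ S'} → ℂ, ∑ a, F a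
      = ∑ i ∈ (cls b).attach, F ⟨i.1.1.1.1, Finset.mem_image_of_mem _ i.2⟩ := fun F => by
    refine (Finset.sum_bij (fun i _ => (⟨i.1.1.1.1, Finset.mem_image_of_mem _ i.2⟩ : {a // a ∈ S'}))
      (fun _ _ => Finset.mem_univ _) (fun i _ j _ e => Subtype.ext
        (hinj i.2 j.2 (congrArg Subtype.val e))) (fun a _ => ?_) (fun _ _ => rfl)).symm
    obtain ⟨i, hi, e⟩ := Finset.mem_image.1 a.2
    exact ⟨⟨i, hi⟩, Finset.mem_attach _ _, Subtype.ext e⟩
  have h := (G.x_bound S').2 v'
  rw [one_mul] at h
  refine le_trans (le_of_eq ?_) (h.trans (le_of_eq ?_))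
  · congr 2
    simp only [dotProduct, Matrix.mulVec, Matrix.submatrix_apply, Pi.star_apply]
    rw [hre, ← Finset.sum_attach]
    refine Finset.sum_congr rfl fun i _ => ?_
    rw [hre, Finset.mul_sum, ← Finset.sum_attach]
    refine Finset.sum_congr rfl fun j _ => ?_
    rw [hv' _ i.2, hv' _ j.2, starRingEnd_apply]
  · have := hre fun a => (Complex.normSq (v' a) : ℂ)
    rw [← Finset.sum_attach (cls b) fun i => Complex.normSq (v i)]
    apply Complex.ofReal_injective
    push_cast
    rw [this]
    exact Finset.sum_congr rfl fun i _ => by rw [hv' _ i.2]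

/-- **The seed extension**, with zero functional. -/
noncomputable def GraphModel.seeded (r : ℕ) : GraphModel (Seeded G r) where
  L := G.L
  h := seedH G
  h_cont i := ((G.h_cont i).comp (by fun_prop) |>.prodMk (by fun_prop)).subtype_mk _
  h_inv := seedH_inv G
  fix_open w w' := by
    have e : {p : Seeded G r | act (seedH G) w p = act (seedH G) w' p}
        = (fun p : Seeded G r => p.1.1) ⁻¹' {ψ | act G.h w ψ = act G.h w' ψ} := by
      ext p
      exact act_seed_eq_iff G w w' p
    rw [e]
    exact (G.fix_open w w').preimage (by fun_prop)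
  x := seedX G
  x_diag p := by simp [seedX, G.x_diag]
  x_band p q hne := by
    classical
    simp only [seedX, Matrix.of_apply, ne_eq, ite_eq_right_iff, not_forall] at hne
    obtain ⟨ho, hne⟩ := hne
    obtain ⟨i, hi⟩ := G.x_band _ _ hne
    refine ⟨i, ?_⟩
    refine eq_of_sameOrbit G ((sameOrbit_equiv G).trans ((sameOrbit_equiv G).symm ⟨[i], rfl⟩) ho) ?_
    exact hi
  x_bound := seedX_numBound G
  x_cont m w := by
    obtain ⟨d, hd, hc⟩ := G.x_cont m w
    refine ⟨fun p => d p.1.1, fun p => hd _, fun i j => ?_⟩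
    refine ((hc i j).comp (show Continuous fun p : Seeded G r => p.1.1 by fun_prop)).congr
      fun p => ?_
    have ho : SameOrbit G (act (seedH G) (w i) p) (act (seedH G) (w j) p) :=
      (sameOrbit_equiv G).trans ((sameOrbit_equiv G).symm ⟨w i, rfl⟩) ⟨w j, rfl⟩
    simp only [Function.comp_apply, seedX, Matrix.of_apply, if_pos ho, act_seed]
  T := 0
  T_pos f _ := le_rfl
  T_inv i f := rfl

/-- Cyclic shift of the seeds. -/
def shift (k : Fin r) (p : Seeded G r) : Seeded G r :=
  ⟨(p.1.1, fun w => p.1.2 w + k), fun w w' e => by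
    show p.1.2 w + k = p.1.2 w' + k
    rw [p.2 w w' e]⟩

lemma continuous_shift (k : Fin r) : Continuous (shift G k) := by
  refine Continuous.subtype_mk ?_ _
  refine (show Continuous fun p : Seeded G r => p.1.1 by fun_prop).prodMk ?_
  refine continuous_pi fun w => ?_
  exact (continuous_of_discreteTopology (f := fun a : Fin r => a + k)).comp (show Continuous fun p : Seeded G r => p.1.2 w by fun_prop)

lemma shift_h (k : Fin r) (i : Fin G.L) (p : Seeded G r) :
    shift G k (seedH G i p) = seedH G i (shift G k p) := rfl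

lemma act_shift (k : Fin r) (w : List (Fin G.L)) (p : Seeded G r) :
    act (seedH G) w (shift G k p) = shift G k (act (seedH G) w p) := by
  refine Subtype.ext ?_
  rw [act_seed]
  show (act G.h w p.1.1, fun v => p.1.2 (w ++ v) + k)
    = ((act (seedH G) w p).1.1, fun v => (act (seedH G) w p).1.2 v + k)
  rw [act_seed]

lemma shift_injective (k : Fin r) : Function.Injective (shift G k) := fun p q e => by
  have h1 : (shift G k p).1.1 = (shift G k q).1.1 := congrArg (fun s : Seeded G r => s.1.1) e
  refine Subtype.ext (Prod.ext h1 (funext fun w => ?_))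
  have h2 : p.1.2 w + k = q.1.2 w + k := congrArg (fun s : Seeded G r => s.1.2 w) e
  have : NeZero r := ⟨fun h0 => by subst h0; exact k.elim0⟩
  exact add_right_cancel h2

lemma seedX_shift (k : Fin r) (p q : Seeded G r) :
    seedX G (shift G k p) (shift G k q) = seedX G p q := by
  classical
  have : SameOrbit G (shift G k p) (shift G k q) ↔ SameOrbit G p q :=
    exists_congr fun w => by rw [act_shift]; exact (shift_injective G k).eq_iff
  simp only [seedX, Matrix.of_apply, this]
  rfl

/-- The section given by a colouring of the points. -/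
def sect (s : K → Fin r) (hs : IsLocallyConstant s) : C(K, Seeded G r) where
  toFun ψ := ⟨(ψ, fun w => s (act G.h w ψ)), fun _ _ e => congrArg s e⟩
  continuous_toFun := (continuous_id.prodMk
    (continuous_pi fun w => hs.continuous.comp (act_continuous G w))).subtype_mk _

variable (s : K → Fin r) (hs : IsLocallyConstant s)

theorem sect_h (i : Fin G.L) (ψ : K) : seedH G i (sect G s hs ψ) = sect G s hs (G.h i ψ) := rfl

lemma act_sect (w : List (Fin G.L)) (ψ : K) :
    act (seedH G) w (sect G s hs ψ) = sect G s hs (act G.h w ψ) := by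
  refine Subtype.ext ?_
  rw [act_seed]
  refine Prod.ext rfl (funext fun v => ?_)
  show s (act G.h (w ++ v) ψ) = s (act G.h v (act G.h w ψ))
  rw [act_append]

lemma sect_injective : Function.Injective (sect G s hs) := fun _ _ e =>
  congrArg (fun q : Seeded G r => q.1.1) e

lemma nbhd_sect (ψ : K) [DecidableEq (Seeded G r)] :
    (G.seeded r).nbhd (sect G s hs ψ) = (G.nbhd ψ).image (sect G s hs) := by
  classical
  ext p
  simp only [GraphModel.nbhd, Finset.mem_insert, Finset.mem_image, Finset.mem_univ, true_and]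
  constructor
  · rintro (rfl | ⟨i, rfl⟩)
    · exact ⟨ψ, Or.inl rfl, rfl⟩
    · exact ⟨G.h i ψ, Or.inr ⟨i, rfl⟩, rfl⟩
  · rintro ⟨φ, rfl | ⟨i, rfl⟩, rfl⟩
    · exact Or.inl rfl
    · exact Or.inr ⟨i, rfl⟩

lemma seedX_sect {ψ χ : K} (h : χ ∈ G.nbhd ψ) :
    seedX G (sect G s hs ψ) (sect G s hs χ) = G.x ψ χ := by
  classical
  have ho : SameOrbit G (sect G s hs ψ) (sect G s hs χ) := by
    simp only [GraphModel.nbhd, Finset.mem_insert, Finset.mem_image, Finset.mem_univ,
      true_and] at h
    rcases h with rfl | ⟨i, rfl⟩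
    · exact ⟨[], rfl⟩
    · exact ⟨[i], rfl⟩
  simp only [seedX, Matrix.of_apply, if_pos ho]
  rfl

lemma wpow_sect (c : Seeded G r → Fin r) (k : ℕ) (ψ φ : K) :
    (G.seeded r).wpow c k (sect G s hs ψ) (sect G s hs φ)
      = G.wpow (c ∘ sect G s hs) k ψ φ := by
  classical
  induction k generalizing ψ with
  | zero => simp [GraphModel.wpow, (sect_injective G s hs).eq_iff]
  | succ k ih =>
    rw [GraphModel.wpow, GraphModel.wpow, nbhd_sect,
      Finset.sum_image fun a _ b _ e => sect_injective G s hs e]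
    refine Finset.sum_congr rfl fun χ hχ => ?_
    rw [ih]
    congr 1
    show (if c (sect G s hs ψ) = c (sect G s hs χ) then seedX G (sect G s hs ψ) (sect G s hs χ)
      else 0) = _
    rw [seedX_sect G s hs hχ]
    rfl

theorem diagVal_sect (c : Seeded G r → Fin r) (g : Polynomial ℝ) (ψ : K) :
    (G.seeded r).diagVal c g (sect G s hs ψ) = G.diagVal (c ∘ sect G s hs) g ψ :=
  Finset.sum_congr rfl fun k _ => by rw [wpow_sect]

/-- The functional read through a section. -/
noncomputable def pullT : C(Seeded G r, ℝ) →ₗ[ℝ] ℝ where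
  toFun f := G.T (f.comp (sect G s hs))
  map_add' f g := by rw [← map_add]; rfl
  map_smul' a f := by rw [← map_smul]; rfl

theorem pullT_nonneg (f : C(Seeded G r, ℝ)) (hf : ∀ p, 0 ≤ f p) : 0 ≤ pullT G s hs f :=
  G.T_pos _ fun _ => hf _

theorem pullT_inv (i : Fin G.L) (f : C(Seeded G r, ℝ)) :
    pullT G s hs (f.comp ⟨(G.seeded r).h i, (G.seeded r).h_cont i⟩) = pullT G s hs f :=
  G.T_inv i (f.comp (sect G s hs))

theorem pullT_one : pullT G s hs 1 = G.T 1 := rfl

end Vale.Agent.P078.Transfer
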