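import Vale.Agent.P078.Sharp.Colour
import Vale.Agent.P078.Sharp.Seed.Model

/-!
# The seed extension as a seeded graph model
-/

namespace Vale.Agent.P078.Sharp

open Vale.Agent.P078.Transfer

universe u

variable {K : Type u} [TopologicalSpace K] {r : ℕ} [NeZero r]

/-- The seed data of the seed extension: the seed is the colour of the empty word. -/
noncomputable def seededData (G : GraphModel K) : SeedData (r := r) (G.seeded r) where
  τ := shift G
  τ_cont := continuous_shift G
  τ_zero p := Subtype.ext (Prod.ext rfl (funext fun w => add_zero (p.1.2 w)))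
  τ_add k l p := Subtype.ext (Prod.ext rfl (funext fun w => by
    show p.1.2 w + l + k = p.1.2 w + (k + l)
    rw [add_assoc, add_comm l k]))
  τ_h i k p := (shift_h G k i p).symm
  τ_x := seedX_shift G
  sd p := p.1.2 []
  sd_loc := (IsLocallyConstant.iff_continuous _).2 (by fun_prop)
  sd_τ k p := rfl
  free w k p e := by
    change act (seedH G) w p = shift G k p at e
    have h := (act_seed G w p).symm.trans (congrArg Subtype.val e)
    have h1 : act G.h w p.1.1 = act G.h [] p.1.1 := congrArg Prod.fst h
    have h2 : p.1.2 (w ++ []) = p.1.2 [] + k := congrFun (congrArg Prod.snd h) []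
    have h3 : p.1.2 (w ++ []) = p.1.2 [] := (congrArg p.1.2 (List.append_nil w)).trans (p.2 w [] h1)
    exact add_left_cancel ((h2.symm.trans h3).trans (add_zero _).symm)

omit [NeZero r] in
/-- Reading through a section is an invariant functional. -/
lemma isInv_pullT (G : GraphModel K) (s : K → Fin r) (hs : IsLocallyConstant s) :
    IsInv (G.seeded r) (pullT G s hs) :=
  ⟨pullT_nonneg G s hs, pullT_inv G s hs⟩

end Vale.Agent.P078.Sharp
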